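import Vale.Agent.N239.Kaz
import Vale.Agent.P239Z.Main

/-!
The deficiency of a duality group of dimension at least three with vanishing first L2-Betti
number is at most zero.
-/

open scoped ENNReal

noncomputable section

namespace Vale.Agent.N239

open Vale.Agent.P239 Vale.Agent.P239Z

variable {G : Type*} [Group G]

lemma act_coeff (g : G) (a : GA G) :
    act g a.coeff = (MonoidAlgebra.of ℂ G g * a).coeff := by
  ext x
  rw [act_apply, MonoidAlgebra.of_apply, MonoidAlgebra.coeff_single_mul_apply, one_mul,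
    smul_eq_mul]

lemma cone_single {X : Type*} (x : X) (l : List X) (r : ℂ) :
    M.cone x (Finsupp.single l r) = Finsupp.single (x :: l) r := by
  simp [M.cone]

lemma bdL_two {X : Type*} (a b : X) :
    M.bdL ℂ [a, b] = Finsupp.single [b] 1 - Finsupp.single [a] 1 := by
  simp [M.bdL, cone_single]

lemma bdL_three {X : Type*} (a b c : X) : M.bdL ℂ [a, b, c]
    = Finsupp.single [b, c] 1 - Finsupp.single [a, c] 1 + Finsupp.single [a, b] 1 := by
  rw [M.bdL, bdL_two, map_sub, cone_single, cone_single]
  abel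

lemma bdL_four {X : Type*} (a b c d : X) : M.bdL ℂ [a, b, c, d]
    = Finsupp.single [b, c, d] 1 - Finsupp.single [a, c, d] 1 + Finsupp.single [a, b, d] 1
      - Finsupp.single [a, b, c] 1 := by
  rw [M.bdL, bdL_three, map_add, map_sub, cone_single, cone_single, cone_single]
  abel

/-- The homogeneous cochain of a function of one variable. -/
def hom1 (d : G → GA G) : List G → G →₀ ℂ
  | [a, b] => (MonoidAlgebra.of ℂ G a * d (a⁻¹ * b)).coeff
  | _ => 0

/-- The homogeneous cochain of a function of two variables. -/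
def hom2 (ω : G → G → GA G) : List G → G →₀ ℂ
  | [a, b, c] => (MonoidAlgebra.of ℂ G a * ω (a⁻¹ * b) (b⁻¹ * c)).coeff
  | _ => 0

lemma equi_hom1 (d : G → GA G) : Equi G (hom1 d) := by
  intro g l
  rw [smul_list]
  match l with
  | [] => simp [hom1]
  | [_] => simp [hom1]
  | [a, b] =>
    simp only [List.map, hom1, act_coeff, smul_eq_mul, map_mul, mul_inv_rev, mul_assoc,
      inv_mul_cancel_left]
  | _ :: _ :: _ :: _ => simp [hom1]

lemma equi_hom2 (ω : G → G → GA G) : Equi G (hom2 ω) := by
  intro g l
  rw [smul_list]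
  match l with
  | [] => simp [hom2]
  | [_] => simp [hom2]
  | [_, _] => simp [hom2]
  | [a, b, c] =>
    simp only [List.map, hom2, act_coeff, smul_eq_mul, map_mul, mul_inv_rev, mul_assoc,
      inv_mul_cancel_left]
  | _ :: _ :: _ :: _ :: _ => simp [hom2]

/-- Derivations to the group ring are inner. -/
lemma der_inner {n : ℕ} (hn : 3 ≤ n) (hD : Dual G n) (d : G → GA G)
    (hd : ∀ g h, d (g * h) = d g + MonoidAlgebra.of ℂ G g * d h) :
    ∃ a, ∀ g, d g = MonoidAlgebra.of ℂ G g * a - a := by
  obtain ⟨y, hy, h⟩ := hD.1 1 (by omega) (hom1 d) (equi_hom1 d) (by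
    intro l hl
    match l, hl with
    | [a, b, c], _ =>
      rw [bdL_three, map_add, map_sub, lc_single, lc_single, lc_single, one_smul, one_smul,
        one_smul]
      simp only [hom1]
      have e : a⁻¹ * c = a⁻¹ * b * (b⁻¹ * c) := by group
      rw [e, hd (a⁻¹ * b), mul_add, ← mul_assoc (MonoidAlgebra.of ℂ G a), ← map_mul,
        mul_inv_cancel_left, MonoidAlgebra.coeff_add]
      abel)
  refine ⟨MonoidAlgebra.ofCoeff (y [1]), fun g => ?_⟩
  have h1 := h [1, g] rfl
  have h2 : y [g] = act g (y [1]) := by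
    rw [← hy g [1], smul_list]
    simp
  rw [bdL_two, map_sub, lc_single, lc_single, one_smul, one_smul, h2] at h1
  simp only [hom1, map_one, inv_one, one_mul] at h1
  refine MonoidAlgebra.coeff_injective ?_
  rw [h1, MonoidAlgebra.coeff_sub, ← act_coeff]

/-- Two-cocycles with values in the group ring are coboundaries. -/
lemma coc_cob {n : ℕ} (hn : 3 ≤ n) (hD : Dual G n) (ω : G → G → GA G)
    (hω : ∀ g h k, MonoidAlgebra.of ℂ G g * ω h k + ω g (h * k) = ω (g * h) k + ω g h) :
    ∃ y : G → GA G, ∀ g h, ω g h = y g + MonoidAlgebra.of ℂ G g * y h - y (g * h) := by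
  obtain ⟨y, hy, h⟩ := hD.1 2 (by omega) (hom2 ω) (equi_hom2 ω) (by
    intro l hl
    match l, hl with
    | [a, b, c, d], _ =>
      rw [bdL_four, map_sub, map_add, map_sub, lc_single, lc_single, lc_single, lc_single,
        one_smul, one_smul, one_smul, one_smul]
      simp only [hom2]
      have h1 := congrArg (fun z => (MonoidAlgebra.of ℂ G a * z).coeff)
        (hω (a⁻¹ * b) (b⁻¹ * c) (c⁻¹ * d))
      have e1 : a⁻¹ * b * (b⁻¹ * c) = a⁻¹ * c := by group
      have e2 : b⁻¹ * c * (c⁻¹ * d) = b⁻¹ * d := by group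
      simp only [e1, e2, mul_add, MonoidAlgebra.coeff_add] at h1
      rw [← mul_assoc (MonoidAlgebra.of ℂ G a), ← map_mul, mul_inv_cancel_left] at h1
      rw [sub_eq_zero, sub_add_eq_add_sub, h1]
      abel)
  refine ⟨fun g => MonoidAlgebra.ofCoeff (y [1, g]), fun g k => ?_⟩
  have h1 := h [1, g, g * k] rfl
  have h2 : y [g, g * k] = act g (y [1, k]) := by
    rw [← hy g [1, k], smul_list]
    simp
  rw [bdL_three, map_add, map_sub, lc_single, lc_single, lc_single, one_smul, one_smul, one_smul,
    h2] at h1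
  simp only [hom2, map_one, inv_one, one_mul, inv_mul_cancel_left] at h1
  refine MonoidAlgebra.coeff_injective ?_
  rw [h1, MonoidAlgebra.coeff_sub, MonoidAlgebra.coeff_add, ← act_coeff]
  abel

lemma eq_zero_of_inv [Infinite G] (a : GA G) (h : ∀ g, MonoidAlgebra.of ℂ G g * a = a) :
    a = 0 := by
  by_contra hne
  have h1 : ∀ g, a.coeff g = a.coeff 1 := by
    intro g
    conv_lhs => rw [← h g]
    rw [MonoidAlgebra.of_apply, MonoidAlgebra.coeff_single_mul_apply, one_mul, inv_mul_cancel]
  have h2 : a.coeff 1 ≠ 0 := by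
    intro h0
    apply hne
    ext g
    rw [h1, h0]
    rfl
  refine Set.infinite_univ (α := G) (a.coeff.support.finite_toSet.subset fun g _ => ?_)
  rw [Finset.mem_coe, Finsupp.mem_support_iff, h1]
  exact h2

/-- The deficiency is at most zero. -/
theorem deficiency [Infinite G] (h : vnDim G (K (lamHom G)) = 0) {n : ℕ} (hn : 3 ≤ n)
    (hD : Dual G n) {a b : ℕ} (rel : Fin b → FreeGroup (Fin a))
    (e : PresentedGroup (Set.range rel) ≃* G) : a ≤ b := by
  by_contra hcon
  push Not at hcon
  obtain ⟨s, hsurj, hker⟩ := exists_gens rel e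
  have hs : Subgroup.closure (Set.range s) = ⊤ := by
    rw [← FreeGroup.range_lift_eq_closure, MonoidHom.range_eq_top]
    exact hsurj
  obtain ⟨D, hD'⟩ := exists_fox (MonoidAlgebra.of ℂ G) s
  have hDN := hD'.map (pN G).toRingHom (lamHom G) pN_of
  let B : (Fin b → GA G) →ₗ[GA G] (Fin a → GA G) :=
    Fintype.linearCombination (GA G) fun j => D (rel j)
  let BN : (Fin b → VN G) →ₗ[VN G] (Fin a → VN G) :=
    Fintype.linearCombination (VN G) fun j i => (pN G).toRingHom (D (rel j) i)
  have hrel : ∀ j, FreeGroup.lift s (rel j) = 1 := fun j => by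
    rw [← MonoidHom.mem_ker, hker]
    exact Subgroup.subset_normalClosure ⟨j, rfl⟩
  have hB0 : ∀ x, ps (MonoidAlgebra.of ℂ G) s (B x) = 0 := by
    intro x
    simp only [B, Fintype.linearCombination_apply, map_sum, map_smul, hD'.ps_eq, hrel, om_one,
      smul_zero, Finset.sum_const_zero]
  have hBr : LinearMap.ker (ps (MonoidAlgebra.of ℂ G) s) ≤ LinearMap.range B := by
    rw [Fintype.range_linearCombination]
    exact hD'.ker_le rel hsurj hker
  have hBNr : LinearMap.ker (ps (lamHom G) s) ≤ LinearMap.range BN := by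
    rw [Fintype.range_linearCombination]
    exact hDN.ker_le rel hsurj hker
  have hk : (vnData G).tdim (LinearMap.ker BN) = 0 := by
    have h1 := (vnData G).tdim_add_le (LinearMap.ker BN).subtype (Submodule.injective_subtype _)
      BN.rangeRestrict BN.surjective_rangeRestrict fun x => Subtype.ext x.2
    have h2 := (card_le h s).trans (add_le_add ((vnData G).tdim_le_of_le hBNr) le_rfl)
    rw [N239.tdim_free, Fintype.card_fin, ENNReal.ofReal_natCast] at h1
    rw [Fintype.card_fin, ENNReal.ofReal_natCast] at h2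
    have h3 : ((b + 1 : ℕ) : ℝ≥0∞) ≤ a := by exact_mod_cast hcon
    have h4 : (vnData G).tdim (LinearMap.ker BN) + a ≤ 0 + a := by
      calc _ ≤ (vnData G).tdim (LinearMap.ker BN)
            + ((vnData G).tdim (LinearMap.range BN) + 1) := add_le_add le_rfl h2
        _ ≤ b + 1 := by rw [← add_assoc]; exact add_le_add h1 le_rfl
        _ ≤ 0 + a := by rw [zero_add]; exact_mod_cast h3
    exact le_antisymm ((ENNReal.add_le_add_iff_right (ENNReal.natCast_ne_top a)).1 h4) bot_le
  have hinj : Function.Injective B := by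
    rw [injective_iff_map_eq_zero]
    intro x hx
    have h1 : (fun j => pN G (x j)) ∈ LinearMap.ker BN := by
      rw [LinearMap.mem_ker]
      funext i
      have h2 := congrArg (pN G) (congrFun hx i)
      simpa [B, BN, Fintype.linearCombination_apply] using h2
    have h2 := eq_zero_of_tdim _ hk h1
    funext j
    exact pN_injective ((congrFun h2 j).trans (map_zero _).symm)
  choose c hc using fun g => ps_surj (MonoidAlgebra.of ℂ G) hs (om _ g)
  have hω : ∀ g k, ∃ w, B w = c g + MonoidAlgebra.of ℂ G g • c k - c (g * k) := by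
    intro g k
    refine hBr ?_
    rw [LinearMap.mem_ker, map_sub, map_add, map_smul, hc, hc, hc, om_mul, sub_self]
  choose ω hω using hω
  have hcoc : ∀ g k l, MonoidAlgebra.of ℂ G g • ω k l + ω g (k * l) = ω (g * k) l + ω g k := by
    intro g k l
    apply hinj
    simp only [map_add, map_smul, hω, smul_sub, smul_add, map_mul, mul_smul, mul_assoc]
    abel
  choose y hy using fun j => coc_cob hn hD (fun g k => ω g k j) fun g k l =>
    congrFun (hcoc g k l) j
  let τ : G → Fin a → GA G := fun g => c g - B fun j => y j g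
  have hτ : ∀ g k, τ (g * k) = τ g + MonoidAlgebra.of ℂ G g • τ k := by
    intro g k
    have h1 : ω g k = (fun j => y j g) + MonoidAlgebra.of ℂ G g • (fun j => y j k)
        - fun j => y j (g * k) := funext fun j => hy j g k
    have h2 := hω g k
    rw [h1, map_sub, map_add, map_smul] at h2
    simp only [τ, smul_sub]
    rw [sub_eq_iff_eq_add] at h2
    rw [eq_sub_of_add_eq h2]
    abel
  choose z hz using fun i => der_inner hn hD (fun g => τ g i) fun g k => congrFun (hτ g k) i
  have h1 : ∀ g, τ g = MonoidAlgebra.of ℂ G g • z - z := fun g => funext fun i => hz i g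
  set u := mu (MonoidAlgebra.of ℂ G) (ps (MonoidAlgebra.of ℂ G) s z) with hu
  have h2 : ∀ g, MonoidAlgebra.of ℂ G g * (1 - u) = 1 - u := by
    intro g
    have h3 := congrArg (fun x => mu (MonoidAlgebra.of ℂ G) (ps (MonoidAlgebra.of ℂ G) s x)) (h1 g)
    simp only [τ, map_sub, map_smul, hc, hB0, mu_om, sub_zero, smul_eq_mul] at h3
    rw [← hu] at h3
    rw [mul_sub, mul_one, sub_eq_sub_iff_sub_eq_sub, h3]
  have h3 := congrArg (MonoidAlgebra.lift ℂ ℂ G 1) (eq_zero_of_inv _ h2)
  rw [hu, ps_apply] at h3
  simp [mu_om] at h3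

end Vale.Agent.N239
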