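import Vale.Agent.P239.Bdl.B1
import Mathlib.GroupTheory.PresentedGroup

/-!
Free differential calculus: the relations between the generators of the module of differentials.
-/

noncomputable section

namespace Vale.Agent.N239

open Vale.Agent.P239

variable {G : Type*} [Group G] {R : Type*} [Ring R] {ι : Type} [Fintype ι] [DecidableEq ι]

/-- The map from the free module on the generators to the module of differentials. -/
def ps (φ : G →* R) (s : ι → G) : (ι → R) →ₗ[R] Om φ :=
  Fintype.linearCombination R fun i => om φ (s i)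

omit [DecidableEq ι] in
lemma ps_apply (φ : G →* R) (s : ι → G) (k : ι → R) : ps φ s k = ∑ i, k i • om φ (s i) :=
  Fintype.linearCombination_apply _ _ _

lemma ps_single (φ : G →* R) (s : ι → G) (i : ι) : ps φ s (Pi.single i 1) = om φ (s i) := by
  simp [ps_apply, Pi.single_apply, ite_smul]

lemma ps_surj (φ : G →* R) {s : ι → G} (hs : Subgroup.closure (Set.range s) = ⊤) :
    Function.Surjective (ps φ s) := by
  have h1 : ∀ g, om φ g ∈ LinearMap.range (ps φ s) := fun g => by
    have hg : g ∈ Subgroup.closure (Set.range s) := by rw [hs]; trivial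
    induction hg using Subgroup.closure_induction with
    | mem x hx =>
      obtain ⟨i, rfl⟩ := hx
      exact ⟨Pi.single i 1, ps_single φ s i⟩
    | one => rw [om_one]; exact zero_mem _
    | mul x y _ _ hx hy => rw [om_mul]; exact add_mem hx (Submodule.smul_mem _ _ hy)
    | inv x _ hx => rw [om_inv]; exact neg_mem (Submodule.smul_mem _ _ hx)
  exact fun z => (Submodule.span_le.2 (Set.range_subset_iff.2 h1)) (om_span _ z)

lemma ker_le_of_der (φ : G →* R) (s : ι → G) (Z : Submodule R (ι → R)) (c : G → ι → R)
    (hc : ∀ h k, c (h * k) - (c h + φ h • c k) ∈ Z) (hs : ∀ i, c (s i) - Pi.single i 1 ∈ Z) :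
    LinearMap.ker (ps φ s) ≤ Z := by
  have hf : ∀ h k, Z.mkQ (c (h * k)) = Z.mkQ (c h) + φ h • Z.mkQ (c k) := by
    intro h k
    rw [← map_smul, ← map_add]
    exact (Submodule.Quotient.eq Z).2 (hc h k)
  have e : (Om.lift φ (fun g => Z.mkQ (c g)) hf).comp (ps φ s) = Z.mkQ := by
    refine LinearMap.pi_ext' fun i => LinearMap.ext_ring ?_
    simp only [LinearMap.coe_comp, LinearMap.coe_single, Function.comp_apply, ps_single,
      Om.lift_om]
    exact (Submodule.Quotient.eq Z).2 (hs i)
  intro x hx
  have h1 := LinearMap.congr_fun e x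
  rw [LinearMap.comp_apply, LinearMap.mem_ker.1 hx, map_zero] at h1
  exact (Submodule.Quotient.mk_eq_zero Z).1 h1.symm

/-- The relations after a change of rings are spanned by the old ones. -/
lemma ker_baseChange {A : Type*} [Ring A] (π : A →+* R) (ψ : G →* A) (φ : G →* R)
    (hφ : ∀ g, φ g = π (ψ g)) {s : ι → G} (hs : Subgroup.closure (Set.range s) = ⊤) :
    LinearMap.ker (ps φ s) ≤
      Submodule.span R {x | ∃ c ∈ LinearMap.ker (ps ψ s), x = fun i => π (c i)} := by
  choose c hc using fun g => ps_surj ψ hs (om ψ g)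
  refine ker_le_of_der φ s _ (fun g i => π (c g i)) (fun h k => ?_) fun i => ?_
  · refine Submodule.subset_span ⟨c (h * k) - (c h + ψ h • c k), ?_, ?_⟩
    · rw [LinearMap.mem_ker, map_sub, map_add, map_smul, hc, hc, hc, om_mul, sub_self]
    · funext i
      simp [hφ]
  · refine Submodule.subset_span ⟨c (s i) - Pi.single i 1, ?_, ?_⟩
    · rw [LinearMap.mem_ker, map_sub, hc, ps_single, sub_self]
    · funext j
      by_cases h : j = i
      · subst h; simp
      · simp [h]

/-- The Fox derivative. -/
structure IsFox (φ : G →* R) (s : ι → G) (D : FreeGroup ι → ι → R) : Prop where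
  of : ∀ i, D (FreeGroup.of i) = Pi.single i 1
  mul : ∀ u v, D (u * v) = D u + φ (FreeGroup.lift s u) • D v

omit [Fintype ι] in
lemma exists_fox (φ : G →* R) (s : ι → G) : ∃ D, IsFox φ s D := by
  let e : ι → Equiv.Perm (ι → R) := fun i =>
    { toFun := fun x => φ (s i) • x + Pi.single i 1
      invFun := fun x => φ (s i)⁻¹ • (x - Pi.single i 1)
      left_inv := fun x => by
        simp only [add_sub_cancel_right]
        rw [← mul_smul, ← map_mul, inv_mul_cancel, map_one, one_smul]
      right_inv := fun x => by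
        simp only
        rw [← mul_smul, ← map_mul, mul_inv_cancel, map_one, one_smul, sub_add_cancel] }
  have key : ∀ (w : FreeGroup ι) (x : ι → R),
      FreeGroup.lift e w x = φ (FreeGroup.lift s w) • x + FreeGroup.lift e w 0 := by
    intro w
    induction w using FreeGroup.induction_on with
    | C1 => intro x; simp
    | of i => intro x; simp [e]
    | inv_of i _ =>
      intro x
      simp only [map_inv, FreeGroup.lift_apply_of]
      change φ (s i)⁻¹ • (x - Pi.single i 1) = φ (s i)⁻¹ • x + φ (s i)⁻¹ • (0 - Pi.single i 1)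
      rw [← smul_add]
      congr 1
      abel
    | mul u v hu hv =>
      intro x
      simp only [map_mul, Equiv.Perm.mul_apply]
      rw [hu, hv x, hu (FreeGroup.lift e v 0), smul_add, mul_smul]
      abel
  refine ⟨fun w => FreeGroup.lift e w 0, fun i => ?_, fun u v => ?_⟩
  · simp [e]
  · simp only [map_mul, Equiv.Perm.mul_apply]
    rw [key u, add_comm]

namespace IsFox

variable {φ : G →* R} {s : ι → G} {D : FreeGroup ι → ι → R}

omit [Fintype ι] in
lemma one (h : IsFox φ s D) : D 1 = 0 := by
  have := h.mul 1 1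
  rw [one_mul, map_one, map_one, one_smul] at this
  simpa using this

omit [Fintype ι] in
lemma inv (h : IsFox φ s D) (w : FreeGroup ι) :
    D w⁻¹ = -(φ (FreeGroup.lift s w⁻¹) • D w) := by
  have := h.mul w⁻¹ w
  rw [inv_mul_cancel, h.one] at this
  exact eq_neg_of_add_eq_zero_left this.symm

lemma ps_eq (h : IsFox φ s D) (w : FreeGroup ι) : ps φ s (D w) = om φ (FreeGroup.lift s w) := by
  induction w using FreeGroup.induction_on with
  | C1 => rw [h.one, map_zero, map_one, om_one]
  | of i => rw [h.of, ps_single, FreeGroup.lift_apply_of]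
  | inv_of i hi => rw [h.inv, map_neg, map_smul, hi, map_inv, om_inv]
  | mul u v hu hv => rw [h.mul, map_add, map_smul, hu, hv, map_mul, om_mul]

omit [Fintype ι] in
lemma map {A : Type*} [Ring A] (π : R →+* A) (φ' : G →* A) (hφ : ∀ g, φ' g = π (φ g))
    (h : IsFox φ s D) : IsFox φ' s fun w i => π (D w i) := by
  refine ⟨fun i => ?_, fun u v => ?_⟩
  · funext j
    rw [h.of]
    by_cases hj : j = i
    · subst hj; simp
    · simp [hj]
  · funext j
    simp [h.mul, hφ]

/-- The derivatives of the relators span the relations. -/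
lemma ker_le (h : IsFox φ s D) {κ : Type*} (rel : κ → FreeGroup ι)
    (hsurj : Function.Surjective (FreeGroup.lift s))
    (hker : (FreeGroup.lift s).ker = Subgroup.normalClosure (Set.range rel)) :
    LinearMap.ker (ps φ s) ≤ Submodule.span R (Set.range fun j => D (rel j)) := by
  set Z := Submodule.span R (Set.range fun j => D (rel j)) with hZ
  let N : Subgroup (FreeGroup ι) :=
    { carrier := {w | FreeGroup.lift s w = 1 ∧ D w ∈ Z}
      one_mem' := ⟨map_one _, by rw [h.one]; exact zero_mem _⟩
      mul_mem' := fun {u v} hu hv => ⟨by rw [map_mul, hu.1, hv.1, one_mul], by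
        rw [h.mul]; exact add_mem hu.2 (Submodule.smul_mem _ _ hv.2)⟩
      inv_mem' := fun {u} hu => ⟨by rw [map_inv, hu.1, inv_one], by
        rw [h.inv]; exact neg_mem (Submodule.smul_mem _ _ hu.2)⟩ }
  have hN : N.Normal := ⟨fun w hw u => ⟨by
    rw [map_mul, map_mul, hw.1, mul_one, map_inv, mul_inv_cancel], by
    have e : D (u * w * u⁻¹) = φ (FreeGroup.lift s u) • D w := by
      rw [h.mul, h.mul, h.inv, map_mul, hw.1, mul_one, smul_neg, ← mul_smul, ← map_mul,
        ← map_mul, mul_inv_cancel, map_one, map_one, one_smul]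
      abel
    rw [e]
    exact Submodule.smul_mem _ _ hw.2⟩⟩
  have hle : (FreeGroup.lift s).ker ≤ N := by
    rw [hker]
    refine Subgroup.normalClosure_le_normal ?_
    rintro _ ⟨j, rfl⟩
    refine ⟨?_, Submodule.subset_span ⟨j, rfl⟩⟩
    rw [← MonoidHom.mem_ker, hker]
    exact Subgroup.subset_normalClosure ⟨j, rfl⟩
  have hcongr : ∀ u v, FreeGroup.lift s u = FreeGroup.lift s v → D u - D v ∈ Z := by
    intro u v huv
    have h1 : v⁻¹ * u ∈ N := hle (by
      rw [MonoidHom.mem_ker, map_mul, map_inv, huv, inv_mul_cancel])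
    have h2 := h.mul v (v⁻¹ * u)
    rw [mul_inv_cancel_left] at h2
    rw [h2, add_sub_cancel_left]
    exact Submodule.smul_mem _ _ h1.2
  choose σ hσ using hsurj
  refine ker_le_of_der φ s Z (fun g => D (σ g)) (fun a b => ?_) fun i => ?_
  · have := hcongr (σ (a * b)) (σ a * σ b) (by rw [map_mul, hσ, hσ, hσ])
    rwa [h.mul, hσ] at this
  · rw [← h.of]
    exact hcongr _ _ (by rw [hσ, FreeGroup.lift_apply_of])

end IsFox

omit [Fintype ι] [DecidableEq ι] in
/-- Generators attached to a presentation. -/
lemma exists_gens {κ : Type*} (rel : κ → FreeGroup ι) (e : PresentedGroup (Set.range rel) ≃* G) :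
    ∃ s : ι → G, Function.Surjective (FreeGroup.lift s) ∧
      (FreeGroup.lift s).ker = Subgroup.normalClosure (Set.range rel) := by
  refine ⟨fun i => e (PresentedGroup.of i), ?_⟩
  have h : FreeGroup.lift (fun i => e (PresentedGroup.of i))
      = e.toMonoidHom.comp (PresentedGroup.mk (Set.range rel)) := by
    ext i
    simp [PresentedGroup.of]
  rw [h]
  refine ⟨e.surjective.comp (PresentedGroup.mk_surjective _), ?_⟩
  ext w
  rw [MonoidHom.mem_ker, MonoidHom.comp_apply, MulEquiv.coe_toMonoidHom, map_eq_one_iff _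
    e.injective]
  exact PresentedGroup.mk_eq_one_iff

end Vale.Agent.N239
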