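import Vale.Agent.N239.Ring

/-!
Growth of the first Betti number along sequences of subgroups of finite index.
-/

open scoped ENNReal Topology
open Matrix Filter

noncomputable section

namespace Vale.Agent.N239

open Vale.Agent.P239

variable {G : Type*} [Group G] {ι : Type} [Fintype ι] [DecidableEq ι]

omit [DecidableEq ι] in
/-- Relations hold for all derivations. -/
lemma der_rel {A R : Type*} [Ring A] [Ring R] (π : A →+* R) (ψ : G →* A) (s : ι → G)
    (d : G → R) (hd : ∀ g h, d (g * h) = d g + π (ψ g) * d h) {c : ι → A} (hc : ps ψ s c = 0) :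
    ∑ i, π (c i) * d (s i) = 0 := by
  let _ : Module A R := Module.compHom R π
  have h1 := congrArg (Om.lift ψ d hd) hc
  rw [ps_apply, map_sum, map_zero] at h1
  rw [← h1]
  refine Finset.sum_congr rfl fun i _ => ?_
  rw [map_smul, Om.lift_om]
  rfl

section Perm

variable (G) (Q : Type*) [Fintype Q] [DecidableEq Q] [MulAction G Q]

/-- The permutation matrices. -/
def pm : G →* Matrix Q Q ℂ := Matrix.permMatrixHom.comp (MulAction.toPermHom G Q)

/-- The permutation representation of the group ring. -/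
def pQ : GA G →ₐ[ℂ] Matrix Q Q ℂ := MonoidAlgebra.lift ℂ _ G (pm G Q)

variable {G Q}

lemma pm_mulVec (g : G) (v : Q → ℂ) (q : Q) : (pm G Q g *ᵥ v) q = v (g⁻¹ • q) := by
  change ((MulAction.toPermHom G Q g)⁻¹.permMatrix ℂ *ᵥ v) q = _
  rw [permMatrix_mulVec, ← map_inv]
  rfl

lemma pm_inv (g : G) : pm G Q g⁻¹ = star (pm G Q g) := by
  change ((MulAction.toPermHom G Q g⁻¹)⁻¹.permMatrix ℂ)
    = ((MulAction.toPermHom G Q g)⁻¹.permMatrix ℂ)ᴴ
  rw [conjTranspose_permMatrix, map_inv]

lemma pm_trace (g : G) : (pm G Q g).trace = (MulAction.fixedBy Q g).ncard := by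
  change ((MulAction.toPermHom G Q g)⁻¹.permMatrix ℂ).trace = _
  rw [trace_permutation, ← map_inv, ← MulAction.fixedBy_inv]
  rfl

lemma pQ_sA (a : GA G) : pQ G Q (sA a) = star (pQ G Q a) := lift_sA (pm G Q) pm_inv a

lemma pQ_of (g : G) : pQ G Q (MonoidAlgebra.of ℂ G g) = pm G Q g := MonoidAlgebra.lift_of _ g

lemma pQ_trace (a : GA G) :
    (pQ G Q a).trace = ∑ g ∈ a.coeff.support, a.coeff g * (MulAction.fixedBy Q g).ncard := by
  rw [pQ, MonoidAlgebra.lift_apply, Finsupp.sum, trace_sum]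
  refine Finset.sum_congr rfl fun g _ => ?_
  rw [trace_smul, pm_trace, smul_eq_mul]

variable (G Q) in
/-- The representation on matrices. -/
def pM (ι : Type) [Fintype ι] [DecidableEq ι] :
    Matrix ι ι (GA G) →+* Matrix (ι × Q) (ι × Q) ℂ :=
  (Matrix.compRingEquiv ι Q ℂ).toRingHom.comp (pQ G Q).toRingHom.mapMatrix

lemma pM_apply (E : Matrix ι ι (GA G)) (x y : ι × Q) :
    pM G Q ι E x y = pQ G Q (E x.1 y.1) x.2 y.2 := rfl

lemma pM_trace (E : Matrix ι ι (GA G)) : (pM G Q ι E).trace = (pQ G Q (∑ i, E i i)).trace := by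
  rw [map_sum, trace_sum, Matrix.trace, Fintype.sum_prod_type]
  rfl

omit [Fintype ι] in
lemma pQ_eMat {m : ℕ} (C : Matrix (Fin m) ι (GA G)) (c : ℝ) (i j : ι) :
    pQ G Q (eMat C c i j) = (if i = j then 1 else 0)
      - (c : ℂ) • ∑ a, (pQ G Q (C a i))ᴴ * pQ G Q (C a j) := by
  simp only [eMat, Matrix.sub_apply, Matrix.smul_apply, Matrix.mul_apply, Matrix.of_apply,
    map_sub, map_smul, map_sum, map_mul, pQ_sA, Matrix.star_eq_conjTranspose]
  congr 1
  by_cases h : i = j
  · subst h; simp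
  · simp [h]

lemma pM_herm {m : ℕ} (C : Matrix (Fin m) ι (GA G)) (c : ℝ) :
    (pM G Q ι (eMat C c))ᴴ = pM G Q ι (eMat C c) := by
  have h : ∀ i j, (pQ G Q (eMat C c j i))ᴴ = pQ G Q (eMat C c i j) := by
    intro i j
    rw [pQ_eMat, pQ_eMat, conjTranspose_sub, conjTranspose_smul, conjTranspose_sum]
    simp only [conjTranspose_mul, conjTranspose_conjTranspose, Complex.star_def,
      Complex.conj_ofReal]
    congr 1
    by_cases hij : i = j
    · subst hij; simp
    · simp [hij, Ne.symm hij]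
  ext x y
  rw [conjTranspose_apply, pM_apply, pM_apply, ← h x.1 y.1, conjTranspose_apply]

lemma pM_fix {m : ℕ} (C : Matrix (Fin m) ι (GA G)) (c : ℝ) (v : ι × Q → ℂ)
    (hv : ∀ a, ∑ i, pQ G Q (C a i) *ᵥ (fun q => v (i, q)) = 0) :
    pM G Q ι (eMat C c) *ᵥ v = v := by
  funext x
  have h1 : (pM G Q ι (eMat C c) *ᵥ v) x
      = (∑ j, pQ G Q (eMat C c x.1 j) *ᵥ fun q => v (j, q)) x.2 := by
    rw [Finset.sum_apply, mulVec, dotProduct, Fintype.sum_prod_type]
    rfl
  have h2 : (∑ j, pQ G Q (eMat C c x.1 j) *ᵥ fun q => v (j, q)) = fun q => v (x.1, q) := by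
    simp only [pQ_eMat, sub_mulVec, Finset.sum_sub_distrib, smul_mulVec, sum_mulVec,
      ← Finset.smul_sum, ← mulVec_mulVec]
    rw [Finset.sum_comm]
    simp only [← mulVec_sum, hv, mulVec_zero, Finset.sum_const_zero, smul_zero, sub_zero]
    rw [Finset.sum_eq_single x.1]
    · simp
    · intro j _ hj
      simp [Ne.symm hj]
    · simp
  rw [h1, h2]

end Perm

section Sub

variable (H : Subgroup G)

/-- The function on the group attached to a homomorphism on the subgroup and a function on the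
cosets. -/
def ext : ((Additive H →+ ℂ) × (G ⧸ H → ℂ)) →ₗ[ℂ] (G → ℂ) where
  toFun p x := p.1 (Additive.ofMul ⟨(Quotient.out (x : G ⧸ H))⁻¹ * x,
    QuotientGroup.eq.1 (Quotient.out_eq _)⟩) + p.2 x
  map_add' p p' := by
    funext x
    simp only [Prod.fst_add, AddMonoidHom.add_apply, Prod.snd_add, Pi.add_apply]
    ring
  map_smul' z p := by
    funext x
    simp only [Prod.smul_fst, AddMonoidHom.smul_apply, Prod.smul_snd, Pi.smul_apply, smul_eq_mul,
      RingHom.id_apply]
    ring

lemma ext_mul (p : (Additive H →+ ℂ) × (G ⧸ H → ℂ)) (x : G) (γ : H) :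
    ext H p (x * γ) = ext H p x + p.1 (Additive.ofMul γ) := by
  have h : ((x * γ : G) : G ⧸ H) = x := QuotientGroup.mk_mul_of_mem x γ.2
  change p.1 _ + p.2 _ = p.1 _ + p.2 _ + _
  rw [add_right_comm, ← map_add, ← ofMul_mul]
  simp only [h]
  congr 3
  refine Subtype.ext ?_
  simp only [Subgroup.coe_mul, mul_assoc]

lemma ext_diff (p : (Additive H →+ ℂ) × (G ⧸ H → ℂ)) (g : G) {x y : G}
    (h : (x : G ⧸ H) = y) : ext H p (g * x) - ext H p x = ext H p (g * y) - ext H p y := by
  have h1 : x⁻¹ * y ∈ H := QuotientGroup.eq.1 h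
  have h2 : y = x * (⟨x⁻¹ * y, h1⟩ : H) := by simp
  rw [h2, ← mul_assoc, ext_mul, ext_mul]
  ring

lemma ext_injective : Function.Injective (ext H) := by
  rw [injective_iff_map_eq_zero]
  intro p hp
  have h1 : p.1 = 0 := by
    refine AddMonoidHom.ext fun γ => ?_
    have := ext_mul H p 1 γ.toMul
    rw [hp] at this
    simpa using this.symm
  refine Prod.ext h1 (funext fun q => ?_)
  obtain ⟨x, rfl⟩ := QuotientGroup.mk_surjective q
  have h2 : p.1 _ + p.2 x = 0 := congrFun hp x
  rw [h1] at h2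
  simpa using h2

/-- The differences along the generators, and the value at the unit. -/
def dif (s : ι → G) : (G → ℂ) →ₗ[ℂ] ((ι × (G ⧸ H) → ℂ) × ℂ) where
  toFun F := (fun y => F ((s y.1)⁻¹ * Quotient.out y.2) - F (Quotient.out y.2), F 1)
  map_add' F F' := by
    refine Prod.ext (funext fun y => ?_) rfl
    simp only [Pi.add_apply, Prod.fst_add]
    ring
  map_smul' z F := by
    refine Prod.ext (funext fun y => ?_) rfl
    simp only [Pi.smul_apply, smul_eq_mul, RingHom.id_apply, Prod.smul_fst]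
    ring

omit [Fintype ι] [DecidableEq ι] in
lemma dif_ext_injective {s : ι → G} (hs : Subgroup.closure (Set.range s) = ⊤) :
    Function.Injective ((dif H s).comp (ext H)) := by
  rw [injective_iff_map_eq_zero]
  intro p hp
  have h1 : ∀ i x, ext H p ((s i)⁻¹ * x) = ext H p x := by
    intro i x
    have h2 : ext H p ((s i)⁻¹ * Quotient.out (x : G ⧸ H)) - ext H p (Quotient.out (x : G ⧸ H))
        = 0 := congrFun (congrArg Prod.fst hp) (i, (x : G ⧸ H))
    rw [ext_diff H p _ (Quotient.out_eq (x : G ⧸ H))] at h2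
    exact sub_eq_zero.1 h2
  have h2 : ∀ g x, ext H p (g * x) = ext H p x := by
    intro g
    have hg : g ∈ Subgroup.closure (Set.range s) := by rw [hs]; trivial
    induction hg using Subgroup.closure_induction with
    | mem x hx =>
      obtain ⟨i, rfl⟩ := hx
      intro y
      rw [← h1 i (s i * y), inv_mul_cancel_left]
    | one => intro y; rw [one_mul]
    | mul a b _ _ ha hb => intro y; rw [mul_assoc, ha, hb]
    | inv a _ ha => intro y; rw [← ha (a⁻¹ * y), mul_inv_cancel_left]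
  have h3 : ext H p 1 = 0 := congrArg Prod.snd hp
  refine ext_injective H (funext fun x => ?_)
  rw [map_zero, ← mul_one x, h2, h3]
  rfl

/-- The basic inequality for one subgroup. -/
lemma betti_le [Fintype (G ⧸ H)] [DecidableEq (G ⧸ H)] {s : ι → G}
    (hs : Subgroup.closure (Set.range s) = ⊤) {m : ℕ} (C : Matrix (Fin m) ι (GA G)) (c : ℝ)
    (j : ℕ) (hC : ∀ a, ps (MonoidAlgebra.of ℂ G) s (C a) = 0) :
    Module.Finite ℂ (Additive H →+ ℂ) ∧
    (Module.finrank ℂ (Additive H →+ ℂ) : ℝ) + Fintype.card (G ⧸ H)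
      ≤ (pQ G (G ⧸ H) (∑ i, (eMat C c ^ (2 * j)) i i)).trace.re + 1 := by
  set P := pM G (G ⧸ H) ι (eMat C c) with hP
  let U : Submodule ℂ (ι × (G ⧸ H) → ℂ) := LinearMap.eqLocus P.mulVecLin LinearMap.id
  have hU : ∀ p, ((dif H s).comp (ext H) p).1 ∈ U := by
    intro p
    refine pM_fix C c _ fun a => ?_
    let d : G → Matrix (G ⧸ H) (G ⧸ H) ℂ := fun g => Matrix.of fun q _ =>
      ext H p (g⁻¹ * Quotient.out q) - ext H p (Quotient.out q)
    have hd : ∀ g h, d (g * h)
        = d g + (pQ G (G ⧸ H)).toRingHom (MonoidAlgebra.of ℂ G g) * d h := by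
      intro g h
      ext q q'
      have h1 : ((pQ G (G ⧸ H)).toRingHom (MonoidAlgebra.of ℂ G g) * d h) q q'
          = (pm G (G ⧸ H) g *ᵥ fun q => d h q q') q := by
        rw [← pQ_of]; rfl
      rw [Matrix.add_apply, h1, pm_mulVec]
      have h2 : ((Quotient.out (g⁻¹ • q) : G) : G ⧸ H) = ((g⁻¹ * Quotient.out q : G) : G ⧸ H) := by
        rw [← smul_eq_mul, ← MulAction.Quotient.smul_mk]
        simp
      simp only [d, Matrix.of_apply]
      rw [ext_diff H p h⁻¹ h2, _root_.mul_inv_rev, mul_assoc]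
      ring
    have h3 := der_rel (pQ G (G ⧸ H)).toRingHom (MonoidAlgebra.of ℂ G) s d hd (hC a)
    funext q
    have h4 := congrFun (congrFun h3 q) q
    rw [Matrix.sum_apply] at h4
    rw [Finset.sum_apply]
    exact h4
  let Θ : ((Additive H →+ ℂ) × (G ⧸ H → ℂ)) →ₗ[ℂ] (U × ℂ) :=
    (((LinearMap.fst ℂ _ _).comp ((dif H s).comp (ext H))).codRestrict U hU).prod
      ((LinearMap.snd ℂ _ _).comp ((dif H s).comp (ext H)))
  have hΘ : Function.Injective Θ := fun p p' h => dif_ext_injective H hs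
    (Prod.ext (congrArg (fun z : U × ℂ => (z.1 : ι × (G ⧸ H) → ℂ)) h) 
      (congrArg (fun z : U × ℂ => z.2) h))
  have hfin : Module.Finite ℂ (Additive H →+ ℂ) :=
    Module.Finite.of_injective (Θ.comp (LinearMap.inl ℂ _ _))
      (hΘ.comp LinearMap.inl_injective)
  have h1 := LinearMap.finrank_le_finrank_of_injective hΘ
  rw [Module.finrank_prod, Module.finrank_prod, Module.finrank_fintype_fun_eq_card,
    Module.finrank_self] at h1
  have h2 : ∀ u ∈ U, (P ^ j) *ᵥ u = u := by
    intro u hu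
    have hu' : P *ᵥ u = u := hu
    induction j with
    | zero => simp
    | succ j ih => rw [pow_succ, ← mulVec_mulVec, hu', ih]
  have h3 := finrank_le_trace (P ^ j) U h2
  rw [conjTranspose_pow, pM_herm, ← pow_add, ← two_mul, ← map_pow, pM_trace] at h3
  have h4 : ((Module.finrank ℂ (Additive H →+ ℂ) + Fintype.card (G ⧸ H) : ℕ) : ℝ)
      ≤ ((Module.finrank ℂ U + 1 : ℕ) : ℝ) := by exact_mod_cast h1
  push_cast at h4
  exact ⟨hfin, by linarith⟩

end Sub

lemma exists_gens_fin (hfg : Group.FG G) :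
    ∃ (n : ℕ) (s : Fin n → G), Subgroup.closure (Set.range s) = ⊤ := by
  obtain ⟨S, hS⟩ := Group.fg_def.1 hfg
  refine ⟨S.card, fun i => S.equivFin.symm i, ?_⟩
  rw [← hS]
  congr 1
  exact (S.equivFin.symm.surjective.range_comp Subtype.val).trans Subtype.range_coe

/-- The index tends to infinity. -/
lemma index_tendsto [Infinite G] (H : ℕ → Subgroup G) (hfi : ∀ n, (H n).FiniteIndex)
    (hF : ∀ g : G, g ≠ 1 → Tendsto
      (fun n => ((MulAction.fixedBy (G ⧸ H n) g).ncard : ℝ) / (H n).index) atTop (𝓝 0)) :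
    Tendsto (fun n => (H n).index) atTop atTop := by
  classical
  refine tendsto_atTop.2 fun M => ?_
  let e : Fin (M ^ M + 1) → G := fun k => Infinite.natEmbedding G k
  have he : Function.Injective e := (Infinite.natEmbedding G).injective.comp Fin.val_injective
  have h1 : ∀ᶠ n in atTop, ∀ a b : Fin (M ^ M + 1), a ≠ b →
      ((MulAction.fixedBy (G ⧸ H n) ((e a)⁻¹ * e b)).ncard : ℝ) / (H n).index < 1 := by
    simp only [eventually_all]
    intro a b hab
    exact (hF _ fun h => hab (he (inv_mul_eq_one.1 h))).eventually_lt_const one_pos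
  filter_upwards [h1] with n hn
  by_contra hcon
  push Not at hcon
  have := hfi n
  have := Fintype.ofFinite (G ⧸ H n)
  have hc : Fintype.card (G ⧸ H n) = (H n).index := by
    rw [Subgroup.index, Nat.card_eq_fintype_card]
  have hpos : 0 < (H n).index := Nat.pos_of_ne_zero Subgroup.FiniteIndex.index_ne_zero
  obtain ⟨a, b, hab, h2⟩ := Fintype.exists_ne_map_eq_of_card_lt
    (fun (a : Fin (M ^ M + 1)) (q : G ⧸ H n) => e a • q) (by
      rw [Fintype.card_fun, Fintype.card_fin, hc]
      refine Nat.lt_succ_of_le ((Nat.pow_le_pow_left hcon.le _).trans ?_)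
      exact Nat.pow_le_pow_right (by omega) hcon.le)
  have h3 : MulAction.fixedBy (G ⧸ H n) ((e a)⁻¹ * e b) = Set.univ := by
    refine Set.eq_univ_of_forall fun q => ?_
    rw [MulAction.mem_fixedBy, mul_smul, ← congrFun h2 q, inv_smul_smul]
  have h4 := hn a b hab
  rw [h3, Set.ncard_univ, ← Subgroup.index, div_self (by exact_mod_cast hpos.ne')] at h4
  exact lt_irrefl _ h4

/-- The normalized traces converge. -/
lemma trace_tendsto (H : ℕ → Subgroup G) (hfi : ∀ n, (H n).FiniteIndex)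
    (hF : ∀ g : G, g ≠ 1 → Tendsto
      (fun n => ((MulAction.fixedBy (G ⧸ H n) g).ncard : ℝ) / (H n).index) atTop (𝓝 0))
    (a : GA G) : Tendsto (fun n => (∑ g ∈ a.coeff.support,
      a.coeff g * (MulAction.fixedBy (G ⧸ H n) g).ncard).re / (H n).index) atTop
      (𝓝 (a.coeff 1).re) := by
  classical
  have h1 : ∀ n, (∑ g ∈ a.coeff.support,
      a.coeff g * (MulAction.fixedBy (G ⧸ H n) g).ncard).re / (H n).index
      = ∑ g ∈ a.coeff.support,
        (a.coeff g).re * (((MulAction.fixedBy (G ⧸ H n) g).ncard : ℝ) / (H n).index) := by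
    intro n
    rw [Complex.re_sum, Finset.sum_div]
    refine Finset.sum_congr rfl fun g _ => ?_
    rw [mul_div_assoc']
    simp
  have h2 : (a.coeff 1).re = ∑ g ∈ a.coeff.support, (a.coeff g).re * if g = 1 then 1 else 0 := by
    simp only [mul_ite, mul_one, mul_zero, Finset.sum_ite_eq']
    split_ifs with h
    · rfl
    · rw [Finsupp.notMem_support_iff.1 h, Complex.zero_re]
  simp only [h1]
  rw [h2]
  refine tendsto_finsetSum _ fun g _ => Tendsto.const_mul _ ?_
  split_ifs with h
  · subst h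
    refine tendsto_const_nhds.congr fun n => ?_
    have := hfi n
    rw [MulAction.fixedBy_one_eq_univ, Set.ncard_univ, ← Subgroup.index,
      div_self (by exact_mod_cast Subgroup.FiniteIndex.index_ne_zero)]
  · exact hF g h

/-- Sublinear growth of the first Betti number. -/
theorem betti_growth [Infinite G] (hfg : Group.FG G) (h : vnDim G (K (lamHom G)) = 0)
    (H : ℕ → Subgroup G) (hfi : ∀ n, (H n).FiniteIndex)
    (hF : ∀ g : G, g ≠ 1 → Tendsto
      (fun n => ((MulAction.fixedBy (G ⧸ H n) g).ncard : ℝ) / (H n).index) atTop (𝓝 0)) :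
    (∀ n, Module.Finite ℂ (Additive (H n) →+ ℂ)) ∧ Tendsto
      (fun n => (Module.finrank ℂ (Additive (H n) →+ ℂ) : ℝ) / (H n).index) atTop (𝓝 0) := by
  classical
  obtain ⟨k, s, hs⟩ := exists_gens_fin hfg
  have key : ∀ {m : ℕ} (C : Matrix (Fin m) (Fin k) (GA G)) (c : ℝ) (j : ℕ),
      (∀ a, ps (MonoidAlgebra.of ℂ G) s (C a) = 0) → ∀ n,
      Module.Finite ℂ (Additive (H n) →+ ℂ) ∧
      (Module.finrank ℂ (Additive (H n) →+ ℂ) : ℝ) + (H n).index
        ≤ (∑ g ∈ (∑ i, (eMat C c ^ (2 * j)) i i).coeff.support,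
          (∑ i, (eMat C c ^ (2 * j)) i i).coeff g
            * (MulAction.fixedBy (G ⧸ H n) g).ncard).re + 1 := by
    intro m C c j hC n
    have := hfi n
    have := Fintype.ofFinite (G ⧸ H n)
    have h1 := betti_le (H n) hs C c j hC
    rwa [pQ_trace, ← Nat.card_eq_fintype_card, ← Subgroup.index] at h1
  refine ⟨fun n => (key (m := 0) 0 0 0 (fun a => a.elim0) n).1, ?_⟩
  refine tendsto_order.2 ⟨fun a ha => Eventually.of_forall fun n => ha.trans_le (by positivity),
    fun ε hε => ?_⟩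
  obtain ⟨m, C, c, j, hC, hb⟩ := exists_approx h hs (ε / 4) (by positivity)
  have h1 := (trace_tendsto H hfi hF (∑ i, (eMat C c ^ (2 * j)) i i)).eventually_lt_const
    (show _ < 1 + ε / 2 by
      rw [MonoidAlgebra.coeff_sum, Finsupp.finsetSum_apply]
      linarith)
  have h2 : Tendsto (fun n => (1 : ℝ) / (H n).index) atTop (𝓝 0) :=
    tendsto_const_nhds.div_atTop (tendsto_natCast_atTop_atTop.comp (index_tendsto H hfi hF))
  filter_upwards [h1, h2.eventually_lt_const (half_pos hε)] with n h3 h4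
  have := hfi n
  have hpos : (0 : ℝ) < (H n).index := by
    exact_mod_cast Nat.pos_of_ne_zero Subgroup.FiniteIndex.index_ne_zero
  have h5 := (key C c j hC n).2
  rw [div_lt_iff₀ hpos] at h3 h4 ⊢
  linarith


end Vale.Agent.N239
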