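import Vale.Agent.N239.Def

/-!
Assembly for closed aspherical manifolds.
-/

namespace Vale.Agent.N239

open Vale.Agent.P239 Filter Topology

variable {n : ℕ} {M X Γ : Type*} [TopologicalSpace M] [T2Space M] [CompactSpace M]
  [ChartedSpace (EuclideanSpace ℝ (Fin n)) M] [TopologicalSpace X] [ContractibleSpace X]
  [Group Γ] [MulAction Γ X] [ContinuousConstSMul Γ X]

theorem singer (hn : 3 ≤ n) (p : X → M) (hp : IsQuotientCoveringMap p Γ) (q : ℕ)
    (hq : q ≤ 1 ∨ n ≤ q + 1) : bettiTwo Γ X q = 0 := by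
  rcases hq with hq | hq
  · rcases Nat.le_one_iff_eq_zero_or_eq_one.1 hq with rfl | rfl
    · exact H269.bettiTwo_zero_of_cover (le_trans (by norm_num) hn) p hp
    · exact H260.singer_n hn p hp
  · exact P239Z.betti_high hn hp hq

theorem dim_K (hn : 3 ≤ n) (p : X → M) (hp : IsQuotientCoveringMap p Γ) :
    vnDim Γ (K (lamHom Γ)) = 0 := by
  have h1 := H260.singer_n hn p hp
  rw [bettiTwo_succ _ _ 0] at h1
  exact (l2Betti_one_eq (H260.coAct_of_cover hp).free).symm.trans h1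

theorem consequences (hn : 3 ≤ n) (p : X → M) (hp : IsQuotientCoveringMap p Γ) :
    (∀ (a b : ℕ) (rel : Fin b → FreeGroup (Fin a)),
      Nonempty (PresentedGroup (Set.range rel) ≃* Γ) → a ≤ b) ∧
    ∀ H : ℕ → Subgroup Γ, (∀ k, (H k).FiniteIndex) →
      (∀ g : Γ, g ≠ 1 → Tendsto
        (fun k => ((MulAction.fixedBy (Γ ⧸ H k) g).ncard : ℝ) / (H k).index) atTop (𝓝 0)) →
      (∀ k, Module.Finite ℂ (Additive (H k) →+ ℂ)) ∧ Tendsto
        (fun k => (Module.finrank ℂ (Additive (H k) →+ ℂ) : ℝ) / (H k).index) atTop (𝓝 0) := by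
  have hinf := H269.infinite_of_cover (n := n) (by omega) hp
  have hlc := (H260.exists_cocomp hp).1
  have hK := dim_K hn p hp
  refine ⟨fun a b rel ⟨e⟩ => ?_, betti_growth (fg_of_cover hp) hK⟩
  obtain ⟨m, rfl⟩ : ∃ k, n = k + 1 := ⟨n - 1, by omega⟩
  exact deficiency hK hn (P239Z.dual_of_cover hp) rel e

end Vale.Agent.N239
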