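import Vale.Agent.N239.Fox
import Vale.Agent.P239.Bdl.B5
import Mathlib.LinearAlgebra.Matrix.Permutation
import Mathlib.Data.Matrix.Composition

/-!
The group ring, its map to the group von Neumann algebra, and approximation of dimensions by
traces of elements of the group ring.
-/

open scoped ENNReal InnerProductSpace
open Matrix Filter

noncomputable section

namespace Vale.Agent.N239

open Vale.Agent.P239

variable {G : Type*} [Group G]

/-- The complex group ring. -/
abbrev GA (G : Type*) [Group G] := MonoidAlgebra ℂ G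

/-- The map from the group ring to the group von Neumann algebra. -/
def pN (G : Type*) [Group G] : GA G →ₐ[ℂ] VN G := MonoidAlgebra.lift ℂ (VN G) G (lamHom G)

lemma pN_single (g : G) (c : ℂ) : pN G (MonoidAlgebra.single g c) = c • lam g :=
  MonoidAlgebra.lift_single _ _ _

lemma pN_of (g : G) : lamHom G g = (pN G).toRingHom (MonoidAlgebra.of ℂ G g) :=
  (MonoidAlgebra.lift_of (lamHom G) g).symm

lemma pN_coeff (a : GA G) (x : G) : (pN G a).op (dl 1) x = a.coeff x := by
  classical
  induction a using MonoidAlgebra.induction_linear with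
  | zero => simp
  | add a b ha hb =>
    rw [map_add, map_add, _root_.add_apply, lp.coeFn_add, Pi.add_apply, ha, hb]
    simp
  | single g c =>
    rw [pN_single, map_smul, _root_.smul_apply, lam_dl, lp.coeFn_smul,
      Pi.smul_apply, dl_apply, mul_one, MonoidAlgebra.coeff_single, Finsupp.single_apply]
    by_cases h : x = g
    · simp [h]
    · simp [h, Ne.symm h]

lemma pN_injective : Function.Injective (pN G) := by
  intro a b h
  ext x
  rw [← pN_coeff, ← pN_coeff, h]

lemma tr_pN (a : GA G) : tr (pN G a) = a.coeff 1 := by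
  rw [tr_eq, inner_dl, pN_coeff]

/-- The involution of the group ring. -/
def sA (a : GA G) : GA G := a.coeff.sum fun g c => MonoidAlgebra.single g⁻¹ (star c)

lemma lift_sA {B : Type*} [Ring B] [Algebra ℂ B] [StarRing B] [StarModule ℂ B] (F : G →* B)
    (hF : ∀ g, F g⁻¹ = star (F g)) (a : GA G) :
    MonoidAlgebra.lift ℂ B G F (sA a) = star (MonoidAlgebra.lift ℂ B G F a) := by
  rw [MonoidAlgebra.lift_apply F a, sA, Finsupp.sum, Finsupp.sum, map_sum, star_sum]
  refine Finset.sum_congr rfl fun g _ => ?_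
  rw [MonoidAlgebra.lift_single, star_smul, hF]

lemma pN_sA (a : GA G) : pN G (sA a) = star (pN G a) :=
  lift_sA (lamHom G) (fun g => (star_lam g).symm) a

variable {ι : Type} [Fintype ι] [DecidableEq ι]

lemma isProj_one : TraceData.IsProj (1 : Matrix ι ι (VN G)) := ⟨mul_one _, conjTranspose_one⟩

lemma Tr_one : (vnData G).Tr (1 : Matrix ι ι (VN G)) = Fintype.card ι := by
  simp [vnData_Tr, tr_one]

lemma tdim_free : (vnData G).tdim (ι → VN G) = ENNReal.ofReal (Fintype.card ι) := by
  rw [← Tr_one (G := G)]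
  refine le_antisymm (le_trans ?_ ((vnData G).tdim_eqLocus_le isProj_one))
    ((vnData G).le_tdim 1 isProj_one LinearMap.id fun x _ h => h)
  exact (vnData G).tdim_mono (LinearMap.codRestrict _ LinearMap.id fun x => vecMul_one x)
    fun x y h => congrArg Subtype.val h

lemma tdim_one : (vnData G).tdim (VN G) = 1 := by
  rw [← (vnData G).tdim_congr (LinearEquiv.funUnique Unit (VN G) (VN G)), tdim_free]
  simp

/-- If the first L2-Betti number vanishes, the relations have codimension at most one. -/
lemma card_le (h : vnDim G (K (lamHom G)) = 0) (s : ι → G) :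
    ENNReal.ofReal (Fintype.card ι) ≤ (vnData G).tdim (LinearMap.ker (ps (lamHom G) s)) + 1 := by
  have h2 : (vnData G).tdim (Om (lamHom G)) ≤ 1 := by
    have := (vnData G).tdim_le_ker_add (mu (lamHom G))
    rwa [← vnDim_eq_tdim G (LinearMap.ker _), h, zero_add, tdim_one] at this
  rw [← tdim_free (G := G)]
  exact ((vnData G).tdim_le_ker_add (ps (lamHom G) s)).trans (add_le_add le_rfl h2)

/-- A submodule of dimension zero of a free module is zero. -/
lemma eq_zero_of_tdim (Z : Submodule (VN G) (ι → VN G)) (h : (vnData G).tdim Z = 0)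
    {x : ι → VN G} (hx : x ∈ Z) : x = 0 := by
  have hP : TraceData.IsProj (projMat Z) := ⟨projMat_mul _, projMat_star _⟩
  have h1 := (vnData G).Tr_le_tdim_of_approx Z hP fun ε hε i => projMat_approx Z ε hε i
  rw [h, nonpos_iff_eq_zero, ENNReal.ofReal_eq_zero] at h1
  have h2 : projMat Z = 0 := (vnData G).eq_zero_of_hs
    (le_antisymm (by rwa [← (vnData G).Tr_proj hP]) ((vnData G).hs_nonneg _))
  rw [← projMat_vecMul Z hx, h2, vecMul_zero]

/-- The dimension of a span is approximated by finite subsets. -/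
lemma exists_finset {M : Type*} [AddCommGroup M] [Module (VN G) M] (S : Set M) (r : ℝ≥0∞)
    (h : r < (vnData G).tdim (Submodule.span (VN G) S)) :
    ∃ T : Finset M, (T : Set M) ⊆ S ∧ r < (vnData G).tdim (Submodule.span (VN G) (T : Set M)) := by
  classical
  by_contra hcon
  push Not at hcon
  refine absurd h (not_lt.2 ((vnData G).tdim_le fun n A g hA hg => ?_))
  choose T hT hT' using fun j : Fin n =>
    Submodule.mem_span_finite_of_mem_span (g (Pi.single j 1)).2
  let t : Finset M := Finset.univ.biUnion T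
  have ht : ∀ j, ((g (Pi.single j 1) : Submodule.span (VN G) S) : M)
      ∈ Submodule.span (VN G) (t : Set M) := fun j =>
    Submodule.span_mono (fun x hx => Finset.mem_coe.2
      (Finset.mem_biUnion.2 ⟨j, Finset.mem_univ j, hx⟩)) (hT' j)
  let g' : (Fin n → VN G) →ₗ[VN G] Submodule.span (VN G) (t : Set M) :=
    Fintype.linearCombination (VN G) fun j => ⟨_, ht j⟩
  have hgg' : ∀ x, ((g' x : Submodule.span (VN G) (t : Set M)) : M) = (g x : M) := by
    intro x
    have e : (Submodule.subtype _).comp g' = (Submodule.subtype _).comp g := by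
      refine LinearMap.pi_ext' fun j => LinearMap.ext_ring ?_
      simp [g', Fintype.linearCombination_apply, Pi.single_apply, ite_smul]
    exact LinearMap.congr_fun e x
  have hg' : TraceData.Emb A g' := by
    intro x hx h0
    refine hg x hx (Subtype.ext ?_)
    rw [← hgg', h0]; rfl
  refine ((vnData G).le_tdim A hA g' hg').trans (hcon t fun x hx => ?_)
  obtain ⟨j, -, hj⟩ := Finset.mem_biUnion.1 (Finset.mem_coe.1 hx)
  exact hT j hj

/-- The contraction attached to a matrix of relations. -/
def eMat {m : ℕ} (C : Matrix (Fin m) ι (GA G)) (c : ℝ) : Matrix ι ι (GA G) :=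
  1 - (c : ℂ) • ((Matrix.of fun i a => sA (C a i)) * C)

/-- Approximation of the codimension of the relations by a trace in the group ring. -/
lemma exists_approx (h : vnDim G (K (lamHom G)) = 0) {s : ι → G}
    (hs : Subgroup.closure (Set.range s) = ⊤) (ε : ℝ) (hε : 0 < ε) :
    ∃ (m : ℕ) (C : Matrix (Fin m) ι (GA G)) (c : ℝ) (j : ℕ),
      (∀ a, ps (MonoidAlgebra.of ℂ G) s (C a) = 0) ∧
      (∑ i, ((eMat C c ^ (2 * j)) i i).coeff 1).re ≤ 1 + ε := by
  by_cases h0 : (Fintype.card ι : ℝ) ≤ 1 + ε
  · refine ⟨0, 0, 0, 0, fun a => a.elim0, ?_⟩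
    simpa [MonoidAlgebra.one_def] using h0
  push Not at h0
  have h1 := (card_le h s).trans (add_le_add ((vnData G).tdim_le_of_le
    (ker_baseChange (pN G).toRingHom (MonoidAlgebra.of ℂ G) (lamHom G) pN_of hs)) le_rfl)
  obtain ⟨T, hT, hT'⟩ := exists_finset _ (ENNReal.ofReal (Fintype.card ι - 1 - ε / 2)) (by
    by_contra hcon
    push Not at hcon
    have h2 := h1.trans (add_le_add hcon le_rfl)
    rw [← ENNReal.ofReal_one, ← ENNReal.ofReal_add (by linarith) zero_le_one,
      ENNReal.ofReal_le_ofReal_iff (by linarith)] at h2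
    linarith)
  choose c hc hc' using fun t : T => hT t.2
  let C : Matrix (Fin T.card) ι (GA G) := fun a => c (T.equivFin.symm a)
  let B : Matrix ι (Fin T.card) (VN G) := (C.map (pN G))ᴴ
  obtain ⟨S, hS, hSB, happ⟩ := (vnData G).exists_lsupp B
  obtain ⟨k, hk, hb⟩ := (vnData G).exists_bound_mul B
  have hlim := (vnData G).tr_limit B hk hb hS hSB happ
  have hCS : C.map (pN G) * S = C.map (pN G) := by
    have := congrArg Matrix.conjTranspose hSB
    rwa [Matrix.conjTranspose_mul, hS.2, Matrix.conjTranspose_conjTranspose] at this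
  have h3 : Submodule.span (VN G) (T : Set (ι → VN G))
      ≤ LinearMap.eqLocus S.vecMulLinear LinearMap.id := by
    refine Submodule.span_le.2 fun t ht => ?_
    have e : t = (C.map (pN G)) (T.equivFin ⟨t, ht⟩) := by
      funext i
      change t i = pN G (c (T.equivFin.symm (T.equivFin ⟨t, ht⟩)) i)
      rw [Equiv.symm_apply_apply]
      exact congrFun (hc' ⟨t, ht⟩) i
    change t ᵥ* S = t
    rw [e]
    funext j
    have := congrFun (congrFun hCS (T.equivFin ⟨t, ht⟩)) j
    rw [Matrix.mul_apply] at this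
    exact this
  have h4 := hT'.trans_le (((vnData G).tdim_le_of_le h3).trans ((vnData G).tdim_eqLocus_le hS))
  rw [ENNReal.ofReal_lt_ofReal_iff_of_nonneg (by linarith)] at h4
  obtain ⟨j, hj⟩ := (hlim.eventually_const_lt h4).exists
  refine ⟨T.card, C, k⁻¹, j, fun a => hc _, ?_⟩
  have e1 : (pN G).toRingHom.mapMatrix (eMat C k⁻¹) = 1 - k⁻¹ • (B * Bᴴ) := by
    ext i i'
    simp only [eMat, B, RingHom.mapMatrix_apply, Matrix.map_apply, Matrix.sub_apply,
      Matrix.smul_apply, Matrix.mul_apply, Matrix.of_apply, Matrix.conjTranspose_apply,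
      star_star, AlgHom.toRingHom_eq_coe, RingHom.coe_coe, map_sub, map_smul, map_sum, map_mul,
      pN_sA]
    congr 1
    by_cases hi : i = i'
    · subst hi; simp
    · simp [hi]
  rw [← e1, ← map_pow, (vnData G).Tr_sub, Tr_one, vnData_Tr] at hj
  simp only [RingHom.mapMatrix_apply, Matrix.map_apply, AlgHom.toRingHom_eq_coe,
    RingHom.coe_coe, tr_pN] at hj
  linarith

/-- A matrix that fixes a subspace has a large norm. -/
lemma finrank_le_trace {n : Type*} [Fintype n] [DecidableEq n] (P : Matrix n n ℂ)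
    (U : Submodule ℂ (n → ℂ)) (h : ∀ u ∈ U, P *ᵥ u = u) :
    (Module.finrank ℂ U : ℝ) ≤ (Pᴴ * P).trace.re := by
  let e : (n → ℂ) ≃ₗ[ℂ] EuclideanSpace ℂ n := (WithLp.linearEquiv 2 ℂ (n → ℂ)).symm
  let U' : Submodule ℂ (EuclideanSpace ℂ n) := U.map e.toLinearMap
  have hd : Module.finrank ℂ U' = Module.finrank ℂ U := LinearEquiv.finrank_map_eq e U
  let b := stdOrthonormalBasis ℂ U'
  let v : Fin (Module.finrank ℂ U') → EuclideanSpace ℂ n := fun k => (b k : EuclideanSpace ℂ n)
  have hv : Orthonormal ℂ v := b.orthonormal.comp_linearIsometry U'.subtypeₗᵢ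
  have hfix : ∀ k a, ∑ c, P a c * v k c = v k a := by
    intro k a
    obtain ⟨u, hu, hu'⟩ := (b k).2
    have h1 : ∀ c, v k c = u c := fun c => by
      change (b k : EuclideanSpace ℂ n) c = u c
      rw [← hu']
      rfl
    simp only [h1]
    exact congrFun (h u hu) a
  have hrow : ∀ a, ∑ k, ‖v k a‖ ^ 2 ≤ ∑ c, ‖P a c‖ ^ 2 := by
    intro a
    have h1 := hv.sum_inner_products_le (e fun c => star (P a c)) (s := Finset.univ)
    rw [EuclideanSpace.norm_sq_eq] at h1
    refine le_trans (le_of_eq (Finset.sum_congr rfl fun k _ => ?_))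
      (h1.trans (le_of_eq (Finset.sum_congr rfl fun c _ => ?_)))
    · rw [← norm_inner_symm, ← hfix k a, PiLp.inner_apply]
      congr 2
      refine Finset.sum_congr rfl fun c _ => ?_
      change _ = inner ℂ (star (P a c)) (v k c)
      simp [mul_comm]
    · change ‖star (P a c)‖ ^ 2 = _
      rw [norm_star]
  have h2 : (Module.finrank ℂ U' : ℝ) = ∑ a, ∑ k, ‖v k a‖ ^ 2 := by
    rw [Finset.sum_comm]
    have : ∀ k, ∑ a, ‖v k a‖ ^ 2 = 1 := fun k => by
      rw [← EuclideanSpace.norm_sq_eq, hv.1 k, one_pow]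
    simp [this]
  rw [← hd, h2]
  refine (Finset.sum_le_sum fun a _ => hrow a).trans (le_of_eq ?_)
  rw [Finset.sum_comm, Matrix.trace, Complex.re_sum]
  refine Finset.sum_congr rfl fun c _ => ?_
  rw [Matrix.diag_apply, Matrix.mul_apply, Complex.re_sum]
  refine Finset.sum_congr rfl fun a _ => ?_
  rw [Matrix.conjTranspose_apply, Complex.star_def, Complex.conj_mul', ← Complex.ofReal_pow,
    Complex.ofReal_re]

end Vale.Agent.N239
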